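import Vale.Agent.P194.AugSplit

/-!
P194: systems over a group algebra that stay injective modulo a locally indicable kernel are
injective; consequences for one-sided inverses.
-/

noncomputable section

namespace Vale.Agent.P194

open MonoidAlgebra

variable {K : Type} [Field K]

/-- Every nontrivial f.g. subgroup maps nontrivially to a group on which augmentation detects
injectivity. -/
def LocAug (K G : Type) [Field K] [Group G] (N : Subgroup G) : Prop :=
  ∀ H : Subgroup G, H ≤ N → H.FG → H ≠ ⊥ →
    ∃ (Q : Type) (_ : Group Q) (φ : H →* Q), φ ≠ 1 ∧ AugInj K Q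

theorem aug_mapDomain {G Q : Type} [Group G] [Group Q] (π : G →* Q) (a : MonoidAlgebra K G) :
    aug (mapDomainRingHom K π a) = aug a := by
  induction a using MonoidAlgebra.induction_linear with
  | zero => simp
  | add a b ha hb => simp only [map_add, ha, hb]
  | single g c => simp only [mapDomainRingHom_apply, mapDomain_single, aug_single]

theorem locAug_top {G : Type} [Group G] {N : Subgroup G} (hN : LocAug K G N) (H : Subgroup G)
    (hH : H ≤ N) : LocAug K H ⊤ := by
  intro L _ hL hne
  let e : L ≃* L.map H.subtype := Subgroup.equivMapOfInjective L H.subtype H.subtype_injective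
  obtain ⟨S, hS, hfin⟩ := (Subgroup.fg_iff L).1 hL
  obtain ⟨Q, i, φ, hφ, hQ⟩ := hN (L.map H.subtype)
    (le_trans (Subgroup.map_subtype_le L) hH)
    ((Subgroup.fg_iff _).2 ⟨H.subtype '' S, by rw [← MonoidHom.map_closure, hS], hfin.image _⟩)
    (by rwa [Ne, Subgroup.map_eq_bot_iff_of_injective _ H.subtype_injective])
  refine ⟨Q, i, φ.comp e.toMonoidHom, fun h => hφ (MonoidHom.ext fun x => ?_), hQ⟩
  simpa using DFunLike.congr_fun h (e.symm x)

/-- The induction: the measure counts repeated points of the supports. -/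
theorem eq_zero_of_augCol : ∀ (μ : ℕ) (G : Type) [Group G] (N : Subgroup G), LocAug K G N →
    ∀ (ι κ : Type) [Fintype ι] [Fintype κ] (M : ι → κ → MonoidAlgebra K G), AugCol M →
      ∀ x : κ → MonoidAlgebra K G, ∑ j, ((x j).coeff.support.card - 1) ≤ μ →
        (∀ j, ∀ g ∈ (x j).coeff.support, ∀ h ∈ (x j).coeff.support, g⁻¹ * h ∈ N) →
        (∀ i, ∑ j, M i j * x j = 0) → x = 0 := by
  intro μ
  induction μ using Nat.strong_induction_on with
  | _ μ ih =>
  intro G _ N hN ι κ _ _ M hM x hμ hxN hx
  classical
  let κ' := {j : κ // (x j).coeff.support.Nonempty}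
  suffices IsEmpty κ' by
    funext j
    by_contra hne
    exact this.false ⟨j, Finsupp.support_nonempty_iff.2 fun h => hne (MonoidAlgebra.ext h)⟩
  refine ⟨fun j₀ => ?_⟩
  choose g hg using fun j : κ' => j.2
  let M₁ : ι → κ' → MonoidAlgebra K G := fun i j => M i j * single (g j) 1
  let x₁ : κ' → MonoidAlgebra K G := fun j => single (g j)⁻¹ 1 * x j
  have hsub : ∀ (f : κ → K), (∀ j, (x j).coeff.support = ∅ → f j = 0) →
      ∑ j : κ', f j = ∑ j, f j := fun f hf => by
    rw [← Finset.sum_subtype (Finset.univ.filter fun j => (x j).coeff.support.Nonempty) (by simp) f,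
      Finset.sum_filter_of_ne fun j _ hj => ?_]
    exact Finset.nonempty_iff_ne_empty.2 fun h => hj (hf j h)
  have hM₁ : AugCol M₁ := by
    intro c hc
    let d : κ → K := fun j => if h : (x j).coeff.support.Nonempty then c ⟨j, h⟩ else 0
    have hd : d = 0 := hM d fun i => by
      rw [← hsub _ fun j hj => by simp only [d]; rw [dif_neg (by rw [hj]; simp), mul_zero], ← hc i]
      refine Finset.sum_congr rfl fun j _ => ?_
      simp only [d, M₁]
      rw [dif_pos j.2, map_mul, aug_single, mul_one]
    funext j
    have := congrFun hd j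
    simp only [d] at this
    rw [dif_pos j.2] at this
    exact this
  have hx₁ : ∀ i, ∑ j, M₁ i j * x₁ j = 0 := by
    intro i
    rw [← hx i, ← Finset.sum_subset (Finset.subset_univ
      (Finset.univ.filter fun j => (x j).coeff.support.Nonempty)) fun j _ hj => ?_,
      Finset.sum_subtype (p := fun j => (x j).coeff.support.Nonempty) _ (by simp)]
    · refine Finset.sum_congr rfl fun j _ => ?_
      show M i j * single (g j) 1 * (single (g j)⁻¹ 1 * x j) = _
      rw [mul_assoc, ← mul_assoc (single (g j) (1 : K)), single_mul_single, mul_inv_cancel, one_mul,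
        ← MonoidAlgebra.one_def, one_mul]
    · have : (x j).coeff.support = ∅ := by simpa [Finset.not_nonempty_iff_eq_empty] using hj
      rw [Finsupp.support_eq_empty] at this
      rw [show x j = 0 from MonoidAlgebra.ext this, mul_zero]
  have hcoef : ∀ j h, (x₁ j).coeff h = (x j).coeff (g j * h) := fun j h => by
    simp [x₁, coeff_single_mul_apply]
  have hone : ∀ j, (1 : G) ∈ (x₁ j).coeff.support := fun j => by
    rw [Finsupp.mem_support_iff, hcoef, mul_one]; exact Finsupp.mem_support_iff.1 (hg j)
  have hxN₁ : ∀ j, ∀ h ∈ (x₁ j).coeff.support, h ∈ N := fun j h hh => by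
    rw [Finsupp.mem_support_iff, hcoef] at hh
    simpa using hxN j (g j) (hg j) (g j * h) (Finsupp.mem_support_iff.2 hh)
  have hcard : ∀ j : κ', (x₁ j).coeff.support.card = (x j).coeff.support.card := fun j => by
    refine Finset.card_bij (fun h _ => g j * h) (fun h hh => ?_) (fun a _ b _ => mul_left_cancel)
      fun h hh => ⟨(g j)⁻¹ * h, ?_, mul_inv_cancel_left _ _⟩
    · rw [Finsupp.mem_support_iff] at hh ⊢; rwa [← hcoef]
    · rw [Finsupp.mem_support_iff] at hh ⊢; rwa [hcoef, mul_inv_cancel_left]
  let H : Subgroup G := Subgroup.closure (⋃ j, ((x₁ j).coeff.support : Set G))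
  have hmemH : ∀ j, ∀ h ∈ (x₁ j).coeff.support, h ∈ H := fun j h hh =>
    Subgroup.subset_closure (Set.mem_iUnion.2 ⟨j, hh⟩)
  by_cases hbot : H = ⊥
  · -- every column is a scalar
    have hsc : ∀ j, x₁ j = single 1 ((x₁ j).coeff 1) := fun j => by
      ext h
      rw [coeff_single, Finsupp.single_apply]
      split
      · next e => rw [e]
      · next e =>
        by_contra hne
        have := hmemH j h (Finsupp.mem_support_iff.2 hne)
        rw [hbot, Subgroup.mem_bot] at this
        exact e this.symm
    have h0 := hM₁ (fun j => (x₁ j).coeff 1) fun i => by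
      have h1 := congrArg aug (hx₁ i)
      rw [map_sum, map_zero] at h1
      rw [← h1]
      refine Finset.sum_congr rfl fun j _ => ?_
      conv_rhs => rw [hsc j, map_mul, aug_single]
    exact Finsupp.mem_support_iff.1 (hone j₀) (congrFun h0 j₀)
  · have hfin : (⋃ j, ((x₁ j).coeff.support : Set G)).Finite :=
      Set.finite_iUnion fun j => Finset.finite_toSet _
    obtain ⟨Q, _, φ, hφ, hQ⟩ := hN H
      ((Subgroup.closure_le _).2 (Set.iUnion_subset fun j => hxN₁ j))
      ((Subgroup.fg_iff H).2 ⟨_, rfl, hfin⟩) hbot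
    let y : κ' → MonoidAlgebra K H := fun j => proj H 1 (x₁ j)
    have hy : ∀ j, mapDomainRingHom K H.subtype (y j) = x₁ j := fun j => by
      ext h
      by_cases hh : h ∈ H
      · rw [show h = H.subtype ⟨h, hh⟩ from rfl, mapDomainRingHom_apply]
        simp only [mapDomain, coeff_ofCoeff]
        rw [Finsupp.mapDomain_apply H.subtype_injective, coeff_proj, one_mul]
        rfl
      · rw [mapDomainRingHom_apply]
        simp only [mapDomain, coeff_ofCoeff]
        rw [Finsupp.mapDomain_of_notMem_range _ _ (by simpa using hh)]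
        by_contra hne
        exact hh (hmemH j h (Finsupp.mem_support_iff.2 (Ne.symm hne)))
    obtain ⟨ι₂, _, M₂, hM₂, hMy⟩ := exists_restrict H M₁ hM₁ y fun i => by
      simp only [hy]; exact hx₁ i
    have hM₂φ : ∀ z : κ' → MonoidAlgebra K Q,
        (∀ i, ∑ j, mapDomainRingHom K φ (M₂ i j) * z j = 0) → z = 0 :=
      hQ ι₂ κ' (fun i j => mapDomainRingHom K φ (M₂ i j)) fun c hc => hM₂ c fun i => by
        have h := hc i
        simp only [aug_mapDomain] at h
        exact h
    obtain ⟨ι₃, _, M₃, hM₃, hMz⟩ := exists_split φ M₂ hM₂φ y hMy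
    -- the measure drops
    let z : (Σ j, ((y j).coeff.support.image φ : Finset Q)) → MonoidAlgebra K H :=
      fun p => comp φ (p.2 : Q) (y p.1)
    have hzs : ∀ p, (z p).coeff.support = (y p.1).coeff.support.filter fun h => φ h = (p.2 : Q) :=
      fun p => by
        ext h
        simp only [Finsupp.mem_support_iff, Finset.mem_filter, z, coeff_comp]
        split <;> simp [*]
    have hycard : ∀ j, (y j).coeff.support.card = (x₁ j).coeff.support.card := fun j => by
      refine Finset.card_bij (fun h _ => (h : G)) (fun h hh => ?_) (fun a _ b _ => Subtype.ext)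
        fun h hh => ⟨⟨h, hmemH j h hh⟩, ?_, rfl⟩
      · rw [Finsupp.mem_support_iff] at hh ⊢; simpa [y, coeff_proj] using hh
      · rw [Finsupp.mem_support_iff] at hh ⊢; simpa [y, coeff_proj] using hh
    have hfib : ∀ j, (∑ q : ((y j).coeff.support.image φ : Finset Q), ((z ⟨j, q⟩).coeff.support.card - 1))
        + ((y j).coeff.support.image φ).card = (y j).coeff.support.card := fun j => by
      rw [← Finset.card_attach, Finset.card_eq_sum_ones, ← Finset.univ_eq_attach, ← Finset.sum_add_distrib]
      conv_rhs => rw [Finset.card_eq_sum_card_image φ, ← Finset.sum_coe_sort]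
      refine Finset.sum_congr rfl fun q _ => ?_
      rw [hzs, Nat.sub_add_cancel]
      obtain ⟨h, hh, hq⟩ := Finset.mem_image.1 q.2
      exact Finset.card_pos.2 ⟨h, Finset.mem_filter.2 ⟨hh, hq⟩⟩
    have hyone : ∀ j, (1 : H) ∈ (y j).coeff.support := fun j => by
      have := hone j
      rw [Finsupp.mem_support_iff] at this ⊢
      simpa [y, coeff_proj] using this
    obtain ⟨j₁, hj₁⟩ : ∃ j, 1 < ((y j).coeff.support.image φ).card := by
      by_contra hall
      push Not at hall
      refine hφ (MonoidHom.ext fun h => ?_)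
      have hker : H ≤ φ.ker.map H.subtype := by
        refine (Subgroup.closure_le _).2 (Set.iUnion_subset fun j s hs => ?_)
        refine ⟨⟨s, hmemH j s hs⟩, ?_, rfl⟩
        have hs' : (⟨s, hmemH j s hs⟩ : H) ∈ (y j).coeff.support := by
          rw [Finsupp.mem_support_iff]
          simpa [y, coeff_proj] using Finsupp.mem_support_iff.1 hs
        have := Finset.card_le_one.1 (hall j) _ (Finset.mem_image_of_mem φ hs') _
          (Finset.mem_image_of_mem φ (hyone j))
        simpa using this
      obtain ⟨k, hk, hke⟩ := hker h.2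
      rwa [H.subtype_injective hke] at hk
    have hlt : ∑ p, ((z p).coeff.support.card - 1) < μ := by
      refine lt_of_lt_of_le ?_ hμ
      rw [Fintype.sum_sigma]
      refine lt_of_lt_of_le (b := ∑ j : κ', ((x j.1).coeff.support.card - 1)) ?_ ?_
      · refine Finset.sum_lt_sum (fun j _ => ?_) ⟨j₁, Finset.mem_univ _, ?_⟩
        · have h1 := hfib j
          have h2 : 0 < ((y j).coeff.support.image φ).card :=
            Finset.card_pos.2 ⟨φ 1, Finset.mem_image_of_mem φ (hyone j)⟩
          rw [hycard, hcard] at h1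
          omega
        · have h1 := hfib j₁
          rw [hycard, hcard] at h1
          omega
      · rw [← Finset.sum_subtype (Finset.univ.filter fun j => (x j).coeff.support.Nonempty) (by simp)
          (fun j => (x j).coeff.support.card - 1)]
        exact Finset.sum_le_sum_of_subset (Finset.subset_univ _)
    have hz := ih _ hlt H ⊤ (locAug_top hN H ((Subgroup.closure_le _).2
      (Set.iUnion_subset fun j => hxN₁ j))) ι₃ _ M₃ hM₃ z le_rfl (fun _ _ _ _ _ => Subgroup.mem_top _) hMz
    have h1 : φ 1 ∈ (y j₀).coeff.support.image φ := Finset.mem_image_of_mem φ (hyone j₀)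
    have h2 := congrFun hz ⟨j₀, φ 1, h1⟩
    have h3 : (1 : H) ∈ (z ⟨j₀, φ 1, h1⟩).coeff.support := by
      rw [hzs]; exact Finset.mem_filter.2 ⟨hyone j₀, rfl⟩
    rw [h2] at h3
    simp at h3

/-- A system injective modulo a kernel with the local property is injective. -/
theorem inj_of_map_inj {G Q : Type} [Group G] [Group Q] (π : G →* Q) (hπ : LocAug K G π.ker)
    {ι κ : Type} [Fintype ι] [Fintype κ] (M : ι → κ → MonoidAlgebra K G)
    (hM : ∀ y : κ → MonoidAlgebra K Q, (∀ i, ∑ j, mapDomainRingHom K π (M i j) * y j = 0) → y = 0)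
    (x : κ → MonoidAlgebra K G) (hx : ∀ i, ∑ j, M i j * x j = 0) : x = 0 := by
  classical
  obtain ⟨ι', _, M', hM', hx'⟩ := exists_split π M hM x hx
  let x' : (Σ j, ((x j).coeff.support.image π : Finset Q)) → MonoidAlgebra K G :=
    fun p => comp π (p.2 : Q) (x p.1)
  have h0 := eq_zero_of_augCol _ G π.ker hπ ι' _ M' hM' x' le_rfl (fun p g hg h hh => by
    simp only [x', Finsupp.mem_support_iff, coeff_comp, ne_eq, ite_eq_right_iff, not_forall] at hg hh
    rw [MonoidHom.mem_ker, map_mul, map_inv, hg.choose, hh.choose, inv_mul_cancel]) hx'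
  funext j
  rw [← sum_comp π _ (x j) fun g hg => Finset.mem_image_of_mem π hg]
  exact Finset.sum_eq_zero fun q hq => congrFun h0 ⟨j, q, hq⟩

/-- One-sided inverses are two-sided. -/
def StablyFinite (K G : Type) [Field K] [Group G] : Prop :=
  ∀ (n : ℕ) (A B : Matrix (Fin n) (Fin n) (MonoidAlgebra K G)), A * B = 1 → B * A = 1

/-- Stable finiteness lifts along homomorphisms whose kernel has the local property. -/
theorem stablyFinite_of_hom {G Q : Type} [Group G] [Group Q] (π : G →* Q)
    (hπ : LocAug K G π.ker) (hQ : StablyFinite K Q) : StablyFinite K G := by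
  classical
  intro n A B hAB
  let f := mapDomainRingHom K π
  have hf : B.map f * A.map f = 1 := hQ n _ _ (by
    rw [← Matrix.map_mul, hAB, Matrix.map_one _ f.map_zero f.map_one])
  have hidem : (B * A) * (1 - B * A) = 0 := by
    rw [mul_sub, mul_one, mul_assoc B A, ← mul_assoc A B, hAB, one_mul, sub_self]
  have hcols : ∀ j : Fin n, (fun l => (1 - B * A) l j) = 0 := fun j => by
    refine inj_of_map_inj π hπ (fun i l => (B * A) i l) (fun y hy => ?_) _ fun i => ?_
    · funext i
      have h := hy i
      have hone : (B * A).map f = 1 := by rw [Matrix.map_mul, hf]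
      have h1 : ∀ l, f ((B * A) i l) = (1 : Matrix (Fin n) (Fin n) (MonoidAlgebra K Q)) i l :=
        fun l => congrFun (congrFun hone i) l
      simp only [f] at h1
      simpa [h1, Matrix.one_apply] using h
    · have := congrFun (congrFun hidem i) j
      rwa [Matrix.mul_apply, Matrix.zero_apply] at this
  refine (sub_eq_zero.1 ?_).symm
  ext l j : 1
  exact congrFun (hcols j) l

theorem exists_left_inverse {ι κ : Type} [Fintype ι] [Fintype κ] [DecidableEq κ] {A : Matrix ι κ K}
    (h : Function.Injective A.mulVec) : ∃ L : Matrix κ ι K, L * A = 1 := by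
  classical
  obtain ⟨g, hg⟩ := LinearMap.exists_leftInverse_of_injective (Matrix.toLin' A)
    (LinearMap.ker_eq_bot.2 h)
  exact ⟨LinearMap.toMatrix' g, by rw [← LinearMap.toMatrix'_toLin' A, ← LinearMap.toMatrix'_comp, hg,
    LinearMap.toMatrix'_id]⟩

theorem exists_square {G : Type} [Group G] {ι κ : Type} [Fintype ι] [Fintype κ] [DecidableEq κ]
    (M : ι → κ → MonoidAlgebra K G) (hM : AugCol M) :
    ∃ S : Matrix κ κ (MonoidAlgebra K G), S.map aug = 1 ∧
      ∀ x : κ → MonoidAlgebra K G, (∀ i, ∑ j, M i j * x j = 0) → S.mulVec x = 0 := by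
  classical
  have hinj : Function.Injective (Matrix.of fun i j => aug (M i j)).mulVec := fun a b h => by
    rw [← sub_eq_zero]
    refine hM (a - b) fun i => ?_
    have := congrFun h i
    simp only [Matrix.mulVec, dotProduct, Matrix.of_apply] at this
    simp [mul_sub, Finset.sum_sub_distrib, this]
  obtain ⟨L, hL⟩ := exists_left_inverse hinj
  let L' : Matrix κ ι (MonoidAlgebra K G) := L.map (algebraMap K _)
  let M' : Matrix ι κ (MonoidAlgebra K G) := Matrix.of M
  refine ⟨L' * M', ?_, fun x hx => ?_⟩
  · show (L' * M').map ⇑(aug (K := K) (G := G)).toRingHom = 1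
    rw [← hL, Matrix.map_mul]
    congr 1
    ext a b
    simp [L', aug_single]
  · rw [← Matrix.mulVec_mulVec, show M'.mulVec x = 0 from funext hx, Matrix.mulVec_zero]

theorem aug_det {G : Type} [CommGroup G] {κ : Type} [Fintype κ] [DecidableEq κ]
    {S : Matrix κ κ (MonoidAlgebra K G)} (hS : S.map aug = 1) : aug S.det = 1 := by
  have h : aug S.det = (S.map aug).det := (aug (K := K) (G := G)).map_det S
  rw [h, hS, Matrix.det_one]

theorem augInj_int : AugInj K (Multiplicative ℤ) := by
  classical
  intro ι κ _ _ M hM x hx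
  obtain ⟨S, hS, hSx⟩ := exists_square M hM
  refine Matrix.eq_zero_of_mulVec_eq_zero (fun h => ?_) (hSx x hx)
  have h1 := aug_det hS
  rw [h, map_zero] at h1
  exact zero_ne_one h1

theorem pow_char_eq (p : ℕ) [Fact p.Prime] [CharP K p] (a : MonoidAlgebra K (Multiplicative (ZMod p))) :
    a ^ p = algebraMap K _ (aug a ^ p) := by
  have : CharP (MonoidAlgebra K (Multiplicative (ZMod p))) p :=
    charP_of_injective_algebraMap (algebraMap K _).injective p
  induction a using MonoidAlgebra.induction_linear with
  | zero => simp [zero_pow (Nat.Prime.ne_zero Fact.out)]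
  | add a b ha hb => rw [add_pow_char, map_add aug, add_pow_char, map_add, ha, hb]
  | single g c =>
    rw [aug_single, MonoidAlgebra.single_pow,
      show g ^ p = 1 from Multiplicative.toAdd.injective (by simp)]
    simp

theorem augInj_zmod (p : ℕ) [Fact p.Prime] [CharP K p] : AugInj K (Multiplicative (ZMod p)) := by
  classical
  intro ι κ _ _ M hM x hx
  obtain ⟨S, hS, hSx⟩ := exists_square M hM
  have hu : IsUnit S.det := by
    refine (isUnit_pow_iff (Fact.out : p.Prime).ne_zero).1 ?_
    rw [pow_char_eq p, aug_det hS, one_pow, map_one]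
    exact isUnit_one
  have h := congrArg (S⁻¹).mulVec (hSx x hx)
  rwa [Matrix.mulVec_mulVec, Matrix.nonsing_inv_mul S hu, Matrix.one_mulVec, Matrix.mulVec_zero] at h

end Vale.Agent.P194
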