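import Mathlib

/-!
P194: splitting linear systems over a group algebra along a homomorphism and along cosets.
-/

noncomputable section

namespace Vale.Agent.P194

open MonoidAlgebra

variable {K G Q : Type} [Field K] [Group G] [Group Q]

/-- The augmentation. -/
def aug : MonoidAlgebra K G →ₐ[K] K := MonoidAlgebra.lift K K G 1

theorem aug_single (g : G) (a : K) : aug (single g a) = a := by simp [aug]

/-- A system is injective after augmentation. -/
def AugCol {ι κ : Type} [Fintype κ] (M : ι → κ → MonoidAlgebra K G) : Prop :=
  ∀ c : κ → K, (∀ i, ∑ j, aug (M i j) * c j = 0) → c = 0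

/-- Every system injective after augmentation is injective. -/
def AugInj (K G : Type) [Field K] [Group G] : Prop :=
  ∀ (ι κ : Type) [Fintype ι] [Fintype κ] (M : ι → κ → MonoidAlgebra K G), AugCol M →
    ∀ x : κ → MonoidAlgebra K G, (∀ i, ∑ j, M i j * x j = 0) → x = 0

/-- The part of an element over a point of the quotient. -/
def comp (π : G →* Q) (q : Q) : MonoidAlgebra K G →+ MonoidAlgebra K G where
  toFun a := by classical exact ofCoeff (a.coeff.filter fun g => π g = q)
  map_zero' := by classical ext g; simp [Finsupp.filter_apply]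
  map_add' a b := by classical ext g; simp [Finsupp.filter_apply]

theorem coeff_comp [DecidableEq Q] (π : G →* Q) (q : Q) (a : MonoidAlgebra K G) (g : G) :
    (comp π q a).coeff g = if π g = q then a.coeff g else 0 := by
  classical
  simp [comp, Finsupp.filter_apply]

theorem comp_single [DecidableEq Q] (π : G →* Q) (q : Q) (g : G) (c : K) :
    comp π q (single g c) = if π g = q then single g c else 0 := by
  classical
  ext h
  by_cases hh : h = g
  · subst hh; rw [coeff_comp]; split <;> simp
  · rw [coeff_comp]; split <;> split <;> simp [Finsupp.single_eq_of_ne hh]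

theorem sum_comp [DecidableEq Q] (π : G →* Q) (T : Finset Q) (b : MonoidAlgebra K G)
    (hT : ∀ g ∈ b.coeff.support, π g ∈ T) : ∑ q ∈ T, comp π q b = b := by
  classical
  ext g
  rw [coeff_sum, Finsupp.finsetSum_apply]
  simp only [coeff_comp, Finset.sum_ite_eq]
  by_cases hg : b.coeff g = 0
  · simp [hg]
  · rw [if_pos (hT g (Finsupp.mem_support_iff.2 hg))]

theorem comp_mul_comp (π : G →* Q) (q q' : Q) (a b : MonoidAlgebra K G) :
    comp π q' (a * comp π q b) = comp π (q' * q⁻¹) a * comp π q b := by
  classical
  induction a using MonoidAlgebra.induction_linear with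
  | zero => simp
  | add a a' h h' => simp [add_mul, h, h']
  | single g c =>
    induction b using MonoidAlgebra.induction_linear with
    | zero => simp
    | add b b' h h' => simp only [map_add, mul_add, h, h']
    | single h d =>
      by_cases hh : π h = q
      · simp only [comp_single, hh, if_true, single_mul_single, map_mul, ← eq_mul_inv_iff_mul_eq]
        split <;> simp [single_mul_single]
      · simp [comp_single, hh]

theorem coeff_mapDomain_eq_aug (π : G →* Q) (a : MonoidAlgebra K G) (r : Q) :
    (mapDomainRingHom K π a).coeff r = aug (comp π r a) := by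
  classical
  induction a using MonoidAlgebra.induction_linear with
  | zero => simp
  | add a b ha hb => simp only [map_add, coeff_add, Finsupp.add_apply, ha, hb]
  | single g c =>
    simp only [mapDomainRingHom_apply, mapDomain_single, comp_single, coeff_single, Finsupp.single_apply]
    split <;> simp [aug_single]

theorem coeff_mul_single' (a : MonoidAlgebra K Q) (q q' : Q) (c : K) :
    (a * single q c).coeff q' = a.coeff (q' * q⁻¹) * c := by
  classical
  induction a using MonoidAlgebra.induction_linear with
  | zero => simp
  | add a b ha hb => simp [add_mul, ha, hb]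
  | single g d =>
    simp only [single_mul_single, coeff_single, Finsupp.single_apply, eq_mul_inv_iff_mul_eq]
    split <;> simp

/-- Splitting along a homomorphism: the columns are the fibres met by the solution. -/
theorem exists_split [DecidableEq Q] (π : G →* Q) {ι κ : Type} [Fintype ι] [Fintype κ]
    (M : ι → κ → MonoidAlgebra K G)
    (hM : ∀ y : κ → MonoidAlgebra K Q, (∀ i, ∑ j, mapDomainRingHom K π (M i j) * y j = 0) → y = 0)
    (x : κ → MonoidAlgebra K G) (hx : ∀ i, ∑ j, M i j * x j = 0) :
    ∃ (ι' : Type) (_ : Fintype ι')
      (M' : ι' → (Σ j, ((x j).coeff.support.image π : Finset Q)) → MonoidAlgebra K G),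
      AugCol M' ∧ ∀ i, ∑ p, M' i p * comp π (p.2 : Q) (x p.1) = 0 := by
  classical
  let U : ι → Finset Q := fun i => Finset.univ.biUnion fun j =>
    Finset.image₂ (fun a b => a * b) ((M i j).coeff.support.image π) ((x j).coeff.support.image π)
  let M' : (Σ i, (U i : Finset Q)) → (Σ j, ((x j).coeff.support.image π : Finset Q)) →
      MonoidAlgebra K G := fun r p => comp π ((r.2 : Q) * (p.2 : Q)⁻¹) (M r.1 p.1)
  refine ⟨Σ i, (U i : Finset Q), inferInstance, M', ?_, fun r => ?_⟩
  · intro c hc
    let y : κ → MonoidAlgebra K Q := fun j =>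
      ∑ q : ((x j).coeff.support.image π : Finset Q), single (q : Q) (c ⟨j, q⟩)
    have hy : y = 0 := by
      refine hM y fun i => MonoidAlgebra.ext (Finsupp.ext fun q' => ?_)
      rw [coeff_sum, Finsupp.finsetSum_apply]
      simp only [y, Finset.mul_sum, coeff_sum, Finsupp.finsetSum_apply, coeff_mul_single',
        coeff_mapDomain_eq_aug]
      by_cases hq' : q' ∈ U i
      · have h := hc ⟨i, q', hq'⟩
        rw [Fintype.sum_sigma] at h
        simpa [M'] using h
      · simp only [coeff_zero, Finsupp.zero_apply]
        refine Finset.sum_eq_zero fun j _ => Finset.sum_eq_zero fun q _ => ?_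
        have : comp π (q' * (q : Q)⁻¹) (M i j) = 0 := by
          ext g
          rw [coeff_comp]
          split
          · next hg =>
            by_contra hne
            refine hq' (Finset.mem_biUnion.2 ⟨j, Finset.mem_univ j, ?_⟩)
            rw [show q' = π g * (q : Q) by rw [hg, inv_mul_cancel_right]]
            exact Finset.mem_image₂_of_mem (Finset.mem_image_of_mem π (Finsupp.mem_support_iff.2 hne)) q.2
          · simp
        rw [this, map_zero, zero_mul]
    funext p
    have h := congrArg (fun a : MonoidAlgebra K Q => a.coeff (p.2 : Q)) (congrFun hy p.1)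
    simp only [y, coeff_sum, Finsupp.finsetSum_apply, coeff_single, Pi.zero_apply, coeff_zero,
      Finsupp.zero_apply] at h
    rw [Finset.sum_eq_single p.2 (fun b _ hb => by simp [Subtype.ext_iff.not.1 hb])
      (by simp)] at h
    simpa using h
  · obtain ⟨i, q', hq'⟩ := r
    rw [Fintype.sum_sigma]
    calc ∑ j, ∑ q : ((x j).coeff.support.image π : Finset Q),
          comp π (q' * (q : Q)⁻¹) (M i j) * comp π (q : Q) (x j)
        = ∑ j, comp π q' (M i j * x j) := by
          refine Finset.sum_congr rfl fun j _ => ?_
          conv_rhs => rw [← sum_comp π _ (x j) fun g hg => Finset.mem_image_of_mem π hg, Finset.mul_sum,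
            map_sum]
          rw [← Finset.sum_coe_sort ((x j).coeff.support.image π)]
          exact Finset.sum_congr rfl fun q _ => (comp_mul_comp π _ _ _ _).symm
      _ = 0 := by rw [← map_sum, hx, map_zero]

/-- The part of an element on a left coset, moved into the subgroup. -/
def proj (H : Subgroup G) (r : G) : MonoidAlgebra K G →+ MonoidAlgebra K H where
  toFun a := ofCoeff (a.coeff.comapDomain (fun h : H => r * h)
    fun _ _ _ _ h => Subtype.ext (mul_left_cancel h))
  map_zero' := by ext h; simp
  map_add' a b := by ext h; simp; rfl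

theorem coeff_proj (H : Subgroup G) (r : G) (a : MonoidAlgebra K G) (h : H) :
    (proj H r a).coeff h = a.coeff (r * h) := rfl

theorem proj_mul (H : Subgroup G) (r : G) (a : MonoidAlgebra K G) (x : MonoidAlgebra K H) :
    proj H r (a * mapDomainRingHom K H.subtype x) = proj H r a * x := by
  classical
  induction x using MonoidAlgebra.induction_linear with
  | zero => simp
  | add x y hx hy => simp only [map_add, mul_add, hx, hy]
  | single h d =>
    ext k
    rw [coeff_proj, coeff_mul_single', mapDomainRingHom_apply, mapDomain_single, coeff_mul_single',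
      coeff_proj]
    simp [mul_assoc]

theorem aug_proj_single (H : Subgroup G) [DecidableEq (G ⧸ H)] (r g : G) (c : K) :
    aug (proj H r (single g c)) = if (g : G ⧸ H) = (r : G ⧸ H) then c else 0 := by
  classical
  split
  · next h =>
    have hmem : r⁻¹ * g ∈ H := QuotientGroup.eq.1 h.symm
    have : proj H r (single g c) = single (⟨r⁻¹ * g, hmem⟩ : H) c := by
      ext k
      simp only [coeff_proj, coeff_single, Finsupp.single_apply, Subtype.ext_iff, inv_mul_eq_iff_eq_mul]
    rw [this, aug_single]
  · next h =>
    have : proj H r (single g c) = 0 := by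
      ext k
      rw [coeff_proj, coeff_single, Finsupp.single_apply, if_neg fun e => h ?_]
      · rfl
      · rw [QuotientGroup.eq, e, mul_inv_rev, inv_mul_cancel_right]
        exact H.inv_mem k.2
    rw [this, map_zero]

theorem aug_eq_sum_proj (H : Subgroup G) (a : MonoidAlgebra K G) (R : Finset (G ⧸ H))
    (hR : ∀ g ∈ a.coeff.support, (g : G ⧸ H) ∈ R) :
    aug a = ∑ r ∈ R, aug (proj H (Quotient.out r) a) := by
  classical
  conv_lhs => rw [← MonoidAlgebra.sum_coeff_single a, Finsupp.sum, map_sum]
  conv_rhs => rw [← MonoidAlgebra.sum_coeff_single a, Finsupp.sum]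
  simp only [map_sum, aug_proj_single, QuotientGroup.out_eq', aug_single]
  rw [Finset.sum_comm]
  refine Finset.sum_congr rfl fun g hg => ?_
  rw [Finset.sum_ite_eq, if_pos (hR g hg)]

/-- Splitting along cosets of a subgroup containing the supports. -/
theorem exists_restrict (H : Subgroup G) {ι κ : Type} [Fintype ι] [Fintype κ]
    (M : ι → κ → MonoidAlgebra K G) (hM : AugCol M) (x : κ → MonoidAlgebra K H)
    (hx : ∀ i, ∑ j, M i j * mapDomainRingHom K H.subtype (x j) = 0) :
    ∃ (ι' : Type) (_ : Fintype ι') (M' : ι' → κ → MonoidAlgebra K H),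
      AugCol M' ∧ ∀ i, ∑ j, M' i j * x j = 0 := by
  classical
  let R : ι → Finset (G ⧸ H) := fun i => Finset.univ.biUnion fun j =>
    (M i j).coeff.support.image (QuotientGroup.mk (s := H))
  refine ⟨Σ i, (R i : Finset (G ⧸ H)), inferInstance,
    fun p j => proj H (Quotient.out (p.2 : G ⧸ H)) (M p.1 j), ?_, fun p => ?_⟩
  · intro c hc
    refine hM c fun i => ?_
    have : ∀ j, aug (M i j) = ∑ r ∈ R i, aug (proj H (Quotient.out r) (M i j)) := fun j =>
      aug_eq_sum_proj H _ _ fun g hg =>
        Finset.mem_biUnion.2 ⟨j, Finset.mem_univ j, Finset.mem_image_of_mem _ hg⟩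
    simp only [this, Finset.sum_mul]
    rw [Finset.sum_comm]
    exact Finset.sum_eq_zero fun r hr => hc ⟨i, r, hr⟩
  · simp only [← proj_mul, ← map_sum, hx, map_zero]

end Vale.Agent.P194
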