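import Vale.Agent.P194.Trace

/-!
Montgomery's theorem over every field of characteristic zero.
-/

namespace Vale.Agent.P194

open Cardinal

theorem lift_of_isAlgebraic {K L : Type} [Field K] [Field L] [Algebra K L]
    [Algebra.IsAlgebraic K L] (φ : K →+* ℂ) : Nonempty (L →+* ℂ) := by
  let inst : Algebra K ℂ := φ.toAlgebra
  exact ⟨(IsAlgClosed.lift : L →ₐ[K] ℂ).toRingHom⟩

theorem countable_field_embeds (L : Type) [Field L] [CharZero L] [Countable L] :
    Nonempty (L →+* ℂ) := by
  obtain ⟨s, hs⟩ := exists_isTranscendenceBasis ℚ L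
  obtain ⟨t, ht⟩ := exists_isTranscendenceBasis ℚ ℂ
  have hℂ : ℵ₀ < #ℂ := by rw [Cardinal.mk_complex]; exact aleph0_lt_continuum
  have hcard := IsAlgClosed.cardinal_eq_cardinal_transcendence_basis_of_aleph0_lt
    _ ht (by simp) hℂ
  simp only [Cardinal.lift_id] at hcard
  have hle : #(s : Set L) ≤ #(t : Set ℂ) := by
    rw [← hcard]
    exact (Cardinal.mk_le_aleph0).trans hℂ.le
  obtain ⟨ι⟩ := Cardinal.le_def _ _ |>.mp hle
  have hy : AlgebraicIndependent ℚ (fun i : s => ((ι i : t) : ℂ)) := ht.1.comp ι ι.injective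
  let e1 := hs.1.aevalEquivField
  let e2 := hy.aevalEquivField
  let φ : IntermediateField.adjoin ℚ (Set.range ((↑) : s → L)) →+* ℂ :=
    (IntermediateField.adjoin ℚ _).val.toRingHom.comp
      (RingHom.comp (@AlgEquiv.toRingEquiv ℚ _ _ _ _ _ (_) (_) e2).toRingHom
        (@AlgEquiv.toRingEquiv ℚ _ _ _ _ _ (_) (_) e1).symm.toRingHom)
  haveI := hs.isAlgebraic_field
  exact lift_of_isAlgebraic φ

/-- Montgomery's theorem: group algebras in characteristic zero are stably finite. -/
theorem mul_eq_one_comm_charZero {G F : Type} [Group G] [Field F] [CharZero F] {k : ℕ}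
    (A B : Matrix (Fin k) (Fin k) (MonoidAlgebra F G)) (h : A * B = 1) : B * A = 1 := by
  classical
  set S : Set F := (⋃ i, ⋃ j, Set.range fun g => (A i j).coeff g) ∪
    (⋃ i, ⋃ j, Set.range fun g => (B i j).coeff g) with hS
  have hr : ∀ x : G →₀ F, (Set.range fun g => x g).Countable := by
    intro x
    have hfin : Set.Finite ((x '' (x.support : Set G)) ∪ {0}) :=
      (x.support.finite_toSet.image _).union (Set.finite_singleton 0)
    refine (hfin.subset ?_).countable
    rintro _ ⟨g, rfl⟩
    by_cases hg : g ∈ x.support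
    · exact Or.inl ⟨g, hg, rfl⟩
    · exact Or.inr (Finsupp.notMem_support_iff.mp hg)
  have hScount : S.Countable := by
    refine Set.Countable.union ?_ ?_ <;>
      exact Set.countable_iUnion fun i => Set.countable_iUnion fun j => hr _
  let L := Subfield.closure S
  haveI : Countable L := by
    rw [← Cardinal.mk_le_aleph0_iff]
    exact (Subfield.cardinalMk_closure_le_max S).trans
      (max_le (Cardinal.le_aleph0_iff_set_countable.mpr hScount) le_rfl)
  haveI : CharZero L := ⟨fun m n hmn => Nat.cast_injective (R := F) (by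
    simpa using congrArg (fun x : L => (x : F)) hmn)⟩
  obtain ⟨ψ⟩ := countable_field_embeds L
  have hlift : ∀ x : MonoidAlgebra F G, (∀ g, x.coeff g ∈ L) →
      ∃ y : MonoidAlgebra L G, MonoidAlgebra.mapRingHom G L.subtype y = x := by
    intro x hx
    refine ⟨∑ g ∈ x.coeff.support, MonoidAlgebra.single g (⟨x.coeff g, hx g⟩ : L), ?_⟩
    conv_rhs => rw [← MonoidAlgebra.sum_coeff_single x]
    simp [Finsupp.sum]
  have hA : ∀ i j g, (A i j).coeff g ∈ L := fun i j g => Subfield.subset_closure
    (Or.inl (Set.mem_iUnion_of_mem i (Set.mem_iUnion_of_mem j ⟨g, rfl⟩)))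
  have hB : ∀ i j g, (B i j).coeff g ∈ L := fun i j g => Subfield.subset_closure
    (Or.inr (Set.mem_iUnion_of_mem i (Set.mem_iUnion_of_mem j ⟨g, rfl⟩)))
  choose A' hA' using fun i j => hlift (A i j) (hA i j)
  choose B' hB' using fun i j => hlift (B i j) (hB i j)
  let π := (MonoidAlgebra.mapRingHom G L.subtype).mapMatrix (m := Fin k)
  let π' := (MonoidAlgebra.mapRingHom G ψ).mapMatrix (m := Fin k)
  have hinjmap : ∀ {R R' : Type} [Semiring R] [Semiring R'] (f : R →+* R'),
      Function.Injective f → Function.Injective ((MonoidAlgebra.mapRingHom G f).mapMatrix (m := Fin k)) := by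
    intro R R' _ _ f hf M N hMN
    ext i j g
    apply hf
    have := congrArg (fun x => x.coeff g) (congrFun (congrFun hMN i) j)
    simpa using this
  have eA : π (Matrix.of A') = A := by ext i j : 1; exact hA' i j
  have eB : π (Matrix.of B') = B := by ext i j : 1; exact hB' i j
  have hπ : Function.Injective π := hinjmap _ Subtype.val_injective
  have hπ' : Function.Injective π' := hinjmap _ ψ.injective
  have h1 : Matrix.of A' * Matrix.of B' = 1 := hπ (by rw [map_mul, map_one, eA, eB, h])
  have h2 := mul_eq_one_comm_complex (π' (Matrix.of A')) (π' (Matrix.of B'))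
    (by rw [← map_mul, h1, map_one])
  rw [← map_mul, ← map_one π'] at h2
  rw [← eA, ← eB, ← map_mul, hπ' h2, map_one]

end Vale.Agent.P194
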