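import Mathlib

/-!
An idempotent matrix over a complex group algebra with zero trace is zero.
-/

namespace Vale.Agent.P194

open Submodule MonoidAlgebra

variable {G : Type} [Group G]

theorem coeff_mul_apply {K : Type} [CommRing K] (x y : MonoidAlgebra K G) (z : G) :
    (x * y).coeff z = ∑ a ∈ x.coeff.support, x.coeff a * y.coeff (a⁻¹ * z) := by
  classical
  conv_lhs => rw [← MonoidAlgebra.sum_coeff_single x]
  simp [Finsupp.sum, Finset.sum_mul, MonoidAlgebra.coeff_single_mul_apply]

theorem idempotent_eq_zero {k : ℕ} (E : Matrix (Fin k) (Fin k) (MonoidAlgebra ℂ G))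
    (hE : E * E = E) (ht : ∑ i, (E i i).coeff 1 = 0) : E = 0 := by
  classical
  let e : G × Fin k → lp (fun _ : G × Fin k => ℂ) 2 := fun x => lp.single 2 x (1 : ℂ)
  have he : ∀ (x : G × Fin k) (v : lp (fun _ : G × Fin k => ℂ) 2), inner ℂ (e x) v = v x := by
    intro x v
    simp [e, lp.inner_single_left]
  have he1 : ∀ x y : G × Fin k, (e x) y = if x = y then (1 : ℂ) else 0 := by
    intro x y
    by_cases h : x = y
    · subst h; simp [e]
    · simp [e, h, Ne.symm h]
  let col : G × Fin k → lp (fun _ : G × Fin k => ℂ) 2 := fun x =>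
    ∑ i, ∑ a ∈ (E i x.2).coeff.support, ((E i x.2).coeff a) • e (a * x.1, i)
  have hcol : ∀ (h y : G) (j i : Fin k), (col (h, j)) (y, i) = (E i j).coeff (y * h⁻¹) := by
    intro h y j i
    simp only [col, lp.coeFn_sum, lp.coeFn_smul, Finset.sum_apply, Pi.smul_apply, smul_eq_mul,
      he1, Prod.mk.injEq]
    rw [Finset.sum_eq_single i]
    · simp only [and_true, ← eq_mul_inv_iff_mul_eq, mul_ite, mul_one, mul_zero]
      rw [Finset.sum_ite_eq']
      split
      · rfl
      · rename_i hn
        exact (Finsupp.notMem_support_iff.mp hn).symm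
    · intro b _ hb
      simp [hb]
    · simp
  have hidem : ∀ (h y : G) (j i : Fin k), (col (h, j)) (y, i) =
      ∑ l, ∑ a ∈ (E i l).coeff.support, (E i l).coeff a * (col (h, j)) (a⁻¹ * y, l) := by
    intro h y j i
    simp only [hcol]
    conv_lhs => rw [← hE, Matrix.mul_apply, MonoidAlgebra.coeff_sum]
    simp only [Finsupp.finsetSum_apply, coeff_mul_apply, mul_assoc]
  set V : Submodule ℂ (lp (fun _ : G × Fin k => ℂ) 2) :=
    (span ℂ (Set.range col)).topologicalClosure with hV
  haveI : CompleteSpace V := (isClosed_topologicalClosure _).completeSpace_coe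
  have hcolV : ∀ x, col x ∈ V := fun x => le_topologicalClosure _ (subset_span ⟨x, rfl⟩)
  have hrel : ∀ v ∈ V, ∀ (y : G) (i : Fin k),
      v (y, i) = ∑ l, ∑ a ∈ (E i l).coeff.support, (E i l).coeff a * v (a⁻¹ * y, l) := by
    intro v hv y i
    let D : lp (fun _ : G × Fin k => ℂ) 2 →L[ℂ] ℂ :=
      (∑ l, ∑ a ∈ (E i l).coeff.support, (E i l).coeff a • innerSL ℂ (e (a⁻¹ * y, l))) -
        innerSL ℂ (e (y, i))
    have hD : ∀ w, D w =
        (∑ l, ∑ a ∈ (E i l).coeff.support, (E i l).coeff a * w (a⁻¹ * y, l)) - w (y, i) := by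
      intro w
      simp only [D, ContinuousLinearMap.sub_apply, ContinuousLinearMap.sum_apply,
        ContinuousLinearMap.smul_apply, innerSL_apply_apply, he, smul_eq_mul]
    have hker : V ≤ LinearMap.ker (D : lp (fun _ : G × Fin k => ℂ) 2 →ₗ[ℂ] ℂ) := by
      refine topologicalClosure_minimal _ ?_ D.isClosed_ker
      rw [span_le]
      rintro _ ⟨⟨h, j⟩, rfl⟩
      simp only [SetLike.mem_coe, LinearMap.mem_ker, ContinuousLinearMap.coe_coe, hD]
      rw [← hidem h y j i, sub_self]
    have := hker hv
    simp only [LinearMap.mem_ker, ContinuousLinearMap.coe_coe, hD, sub_eq_zero] at this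
    exact this.symm
  set Q := V.starProjection with hQ
  -- translations
  have htrans : ∀ g : G, ∃ U : lp (fun _ : G × Fin k => ℂ) 2 ≃ₗᵢ[ℂ] lp (fun _ : G × Fin k => ℂ) 2,
      ∀ h j, U (e (h, j)) = e (h * g, j) := by
    intro g
    let σ : G × Fin k ≃ G × Fin k := (Equiv.mulRight g).prodCongr (Equiv.refl _)
    let b0 : HilbertBasis (G × Fin k) ℂ (lp (fun _ : G × Fin k => ℂ) 2) :=
      HilbertBasis.ofRepr (LinearIsometryEquiv.refl ℂ _)
    have hb0 : ∀ x, b0 x = e x := fun x => by
      rw [← b0.repr_symm_single x]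
      rfl
    let b1 : HilbertBasis (G × Fin k) ℂ (lp (fun _ : G × Fin k => ℂ) 2) :=
      HilbertBasis.mk (v := fun x => b0 (σ x)) (b0.orthonormal.comp σ σ.injective) (by
        have : Set.range (fun x => b0 (σ x)) = Set.range (fun x => b0 x) :=
          σ.surjective.range_comp (fun x => b0 x)
        rw [this, b0.dense_span])
    refine ⟨b1.repr.symm, fun h j => ?_⟩
    change b1.repr.symm (lp.single 2 (h, j) (1 : ℂ)) = _
    rw [b1.repr_symm_single]
    have : b1 (h, j) = b0 (σ (h, j)) := congrFun (HilbertBasis.coe_mk _ _) (h, j)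
    rw [this, hb0]
    rfl
  choose U hU using htrans
  have hUcol : ∀ g h j, U g (col (h, j)) = col (h * g, j) := by
    intro g h j
    simp only [col, map_sum, map_smul, hU, mul_assoc]
  have hUV : ∀ g, ∀ v ∈ V, U g v ∈ V := by
    intro g v hv
    have hle : V ≤ V.comap (U g).toLinearIsometry.toLinearMap := by
      refine topologicalClosure_minimal _ ?_ ((isClosed_topologicalClosure _).preimage (U g).continuous)
      rw [span_le]
      rintro _ ⟨⟨h, j⟩, rfl⟩
      show U g (col (h, j)) ∈ V
      rw [hUcol]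
      exact hcolV _
    exact hle hv
  have hUinv : ∀ g h j, U g⁻¹ (e (h * g, j)) = e (h, j) := fun g h j => by
    rw [hU]; simp
  have hUQ : ∀ g h j, Q (e (h * g, j)) = U g (Q (e (h, j))) := by
    intro g h j
    refine eq_starProjection_of_mem_of_inner_eq_zero (hUV g _ (starProjection_apply_mem _ _)) ?_
    intro w hw
    have hinv : ∀ v, U g (U g⁻¹ v) = v := by
      intro v
      have hd : ((U g⁻¹).trans (U g)).toContinuousLinearEquiv.toContinuousLinearMap =
          ContinuousLinearMap.id ℂ _ := by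
        refine ContinuousLinearMap.ext_on (Submodule.dense_iff_topologicalClosure_eq_top.mpr
          (HilbertBasis.ofRepr
            (LinearIsometryEquiv.refl ℂ (lp (fun _ : G × Fin k => ℂ) 2))).dense_span) ?_
        rintro _ ⟨⟨a, b⟩, rfl⟩
        show U g (U g⁻¹ _) = _
        rw [← HilbertBasis.repr_symm_single]
        show U g (U g⁻¹ (e (a, b))) = e (a, b)
        rw [hU, hU]
        simp
      exact DFunLike.congr_fun hd v
    rw [← hU g h j, ← map_sub, ← hinv w, LinearIsometryEquiv.inner_map_map]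
    exact starProjection_inner_eq_zero _ _ (hUV g⁻¹ w hw)
  have hshift : ∀ (a : G) (i l : Fin k),
      (Q (e (1, i))) (a⁻¹, l) = inner ℂ (e (1, l)) (Q (e (a, i))) := by
    intro a i l
    rw [← he (a⁻¹, l), ← (U a).inner_map_map, hU, ← hUQ]
    simp
  have hsum : ∑ i, inner ℂ (e (1, i)) (Q (e (1, i))) = 0 := by
    rw [← ht]
    have h1 : ∀ i, inner ℂ (e (1, i)) (Q (e (1, i))) = ∑ l, ∑ a ∈ (E i l).coeff.support,
        (E i l).coeff a * inner ℂ (e (1, l)) (Q (e (a, i))) := by
      intro i
      rw [he, hrel _ (starProjection_apply_mem _ _) 1 i]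
      simp only [mul_one]
      exact Finset.sum_congr rfl fun l _ => Finset.sum_congr rfl fun a _ => by rw [hshift]
    simp only [h1]
    rw [Finset.sum_comm]
    refine Finset.sum_congr rfl fun l _ => ?_
    have h2 : Q (col (1, l)) = col (1, l) := starProjection_eq_self_iff.mpr (hcolV _)
    have h3 := hcol 1 1 l l
    rw [← he, ← h2] at h3
    simp only [col, map_sum, map_smul, inner_sum, inner_smul_right, mul_one, inv_one] at h3
    exact h3
  have hzero : ∀ i, Q (e (1, i)) = 0 := by
    intro i
    have hn : ∀ i, inner ℂ (e (1, i)) (Q (e (1, i))) = ((‖Q (e (1, i))‖ ^ 2 : ℝ) : ℂ) := by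
      intro i
      have hself : Q (Q (e (1, i))) = Q (e (1, i)) :=
        starProjection_eq_self_iff.mpr (starProjection_apply_mem _ _)
      calc inner ℂ (e (1, i)) (Q (e (1, i)))
          = inner ℂ (e (1, i)) (Q (Q (e (1, i)))) := by rw [hself]
        _ = inner ℂ (Q (e (1, i))) (Q (e (1, i))) := (inner_starProjection_left_eq_right V _ _).symm
        _ = _ := by rw [inner_self_eq_norm_sq_to_K]; push_cast; rfl
    simp only [hn, ← Complex.ofReal_sum, Complex.ofReal_eq_zero] at hsum
    have := (Finset.sum_eq_zero_iff_of_nonneg (fun j _ => sq_nonneg _)).mp hsum i (Finset.mem_univ i)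
    simpa using this
  have hall : ∀ h j, Q (e (h, j)) = 0 := by
    intro h j
    have := hUQ h 1 j
    rw [one_mul, hzero, map_zero] at this
    exact this
  have hcol0 : ∀ x, col x = 0 := by
    intro x
    rw [← starProjection_eq_self_iff.mpr (hcolV x)]
    change Q (col x) = 0
    simp [col, map_sum, hall]
  ext i j : 2
  refine Finsupp.ext fun y => ?_
  have := hcol 1 y j i
  rw [hcol0] at this
  simpa using this.symm

/-- Montgomery's theorem over the complex numbers. -/
theorem mul_eq_one_comm_complex {k : ℕ} (A B : Matrix (Fin k) (Fin k) (MonoidAlgebra ℂ G))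
    (h : A * B = 1) : B * A = 1 := by
  classical
  have hidem : (1 - B * A) * (1 - B * A) = 1 - B * A := by
    have : B * A * (B * A) = B * A := by
      rw [mul_assoc, ← mul_assoc A B A, h, one_mul]
    rw [sub_mul, mul_sub, mul_sub, this]
    simp
  have hcyc : ∀ x y : MonoidAlgebra ℂ G, (x * y).coeff 1 = (y * x).coeff 1 := by
    intro x y
    have hS : ∀ (x y : MonoidAlgebra ℂ G) (S : Finset G), x.coeff.support ⊆ S →
        (x * y).coeff 1 = ∑ a ∈ S, x.coeff a * y.coeff a⁻¹ := by
      intro x y S hS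
      rw [coeff_mul_apply]
      simp only [mul_one]
      refine Finset.sum_subset hS fun a _ ha => ?_
      simp [Finsupp.notMem_support_iff.mp ha]
    set S := x.coeff.support ∪ y.coeff.support.image (fun a => a⁻¹) with hSdef
    rw [hS x y S Finset.subset_union_left, hS y x (S.image (fun a => a⁻¹)) (fun a ha => by
      refine Finset.mem_image.mpr ⟨a⁻¹, ?_, inv_inv a⟩
      exact Finset.mem_union_right _ (Finset.mem_image_of_mem _ ha)),
      Finset.sum_image (fun a _ b _ hab => inv_injective hab)]
    exact Finset.sum_congr rfl fun a _ => by rw [inv_inv, mul_comm]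
  have ht : ∑ i, ((1 - B * A) i i).coeff 1 = 0 := by
    have e1 : ∑ i, ((B * A) i i).coeff 1 = ∑ i, ((A * B) i i).coeff 1 := by
      simp only [Matrix.mul_apply, MonoidAlgebra.coeff_sum, Finsupp.finsetSum_apply]
      rw [Finset.sum_comm]
      exact Finset.sum_congr rfl fun l _ => Finset.sum_congr rfl fun i _ => hcyc _ _
    simp only [Matrix.sub_apply, MonoidAlgebra.coeff_sub, Finsupp.sub_apply, Finset.sum_sub_distrib,
      e1, h, sub_self]
  exact (sub_eq_zero.mp (idempotent_eq_zero _ hidem ht)).symm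

end Vale.Agent.P194
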